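import Mathlib

/-!
# P194: free groups are residually finite p-groups
-/

namespace Vale.Agent.P194

variable {α : Type} (L : List (α × ℤ)) (R : Type) [CommRing R]

/-- Unitriangular matrices among the invertible ones. -/
def unitriangular (m : ℕ) : Submonoid (Matrix (Fin m) (Fin m) R)ˣ where
  carrier := {u | ∀ i j : Fin m, j.val ≤ i.val → u.val i j = (1 : Matrix (Fin m) (Fin m) R) i j}
  one_mem' := fun i j _ => rfl
  mul_mem' := by
    intro u v hu hv i j hij
    rw [Units.val_mul, Matrix.mul_apply, Finset.sum_eq_single i]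
    · rw [hu i i le_rfl, hv i j hij, Matrix.one_apply_eq, one_mul]
    · intro l _ hl
      rcases le_or_gt l.val i.val with h | h
      · rw [hu i l h, Matrix.one_apply_ne (Ne.symm hl), zero_mul]
      · rw [hv l j (by omega), Matrix.one_apply_ne (by intro e; omega), mul_zero]
    · simp

open scoped Classical in
/-- The step matrix of a letter: 1 at (a, a + 1) when the a-th syllable has this letter. -/
noncomputable def stepMatrix (i : α) : Matrix (Fin (L.length + 1)) (Fin (L.length + 1)) R :=
  fun a b => if b.val = a.val + 1 ∧ (L[a.val]?).map Prod.fst = some i then 1 else 0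

variable {L}

lemma stepMatrix_sq (hc : L.IsChain fun u v => u.1 ≠ v.1) (i : α) :
    stepMatrix L R i * stepMatrix L R i = 0 := by
  classical
  ext a b
  rw [Matrix.mul_apply, Matrix.zero_apply]
  refine Finset.sum_eq_zero fun c _ => ?_
  simp only [stepMatrix]
  split_ifs with h1 h2 <;> simp only [mul_zero, mul_one]
  exfalso
  obtain ⟨e1, l1⟩ := h1
  obtain ⟨e2, l2⟩ := h2
  simp only [Option.map_eq_some_iff] at l1 l2
  obtain ⟨u, hu, rfl⟩ := l1
  obtain ⟨v, hv, hvu⟩ := l2
  rw [List.getElem?_eq_some_iff] at hu hv
  obtain ⟨hu1, hu2⟩ := hu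
  obtain ⟨hv1, hv2⟩ := hv
  have := List.isChain_iff_getElem.1 hc a.val (by omega)
  simp only [← e1] at this
  rw [hu2, hv2] at this
  exact this hvu.symm

/-- The unit 1 + N_i. -/
noncomputable def stepUnit (hc : L.IsChain fun u v => u.1 ≠ v.1) (i : α) :
    (Matrix (Fin (L.length + 1)) (Fin (L.length + 1)) R)ˣ where
  val := 1 + stepMatrix L R i
  inv := 1 - stepMatrix L R i
  val_inv := by simp [mul_sub, add_mul, stepMatrix_sq R hc i]
  inv_val := by simp [sub_mul, mul_add, stepMatrix_sq R hc i]

lemma stepUnit_zpow (hc : L.IsChain fun u v => u.1 ≠ v.1) (i : α) (n : ℤ) :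
    ((stepUnit R hc i ^ n : (Matrix (Fin (L.length + 1)) (Fin (L.length + 1)) R)ˣ) :
      Matrix (Fin (L.length + 1)) (Fin (L.length + 1)) R) = 1 + n • stepMatrix L R i := by
  induction n using Int.induction_on with
  | zero => simp
  | succ n ih =>
      rw [zpow_add_one, Units.val_mul, ih]
      simp only [stepUnit, mul_add, add_mul, smul_mul_assoc, stepMatrix_sq R hc i, smul_zero,
        mul_one, one_mul, add_zero, add_smul, one_smul]
      abel
  | pred n ih =>
      rw [zpow_sub_one, Units.val_mul, ih]
      simp only [stepUnit, Units.inv_mk, mul_sub, add_mul, smul_mul_assoc,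
        stepMatrix_sq R hc i, smul_zero, mul_one, one_mul, add_zero, sub_smul, one_smul]
      abel

lemma row_zero (hc : L.IsChain fun u v => u.1 ≠ v.1) (j : ℕ) (hj : j ≤ L.length) :
    (∀ b : Fin (L.length + 1), j < b.val →
      (((L.take j).map fun s => stepUnit R hc s.1 ^ s.2).prod).val 0 b = 0) ∧
    (∀ b : Fin (L.length + 1), b.val = j →
      (((L.take j).map fun s => stepUnit R hc s.1 ^ s.2).prod).val 0 b =
        (((L.take j).map Prod.snd).prod : ℤ)) := by
  classical
  induction j with
  | zero =>
      refine ⟨fun b hb => ?_, fun b hb => ?_⟩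
      · simp [show (0 : Fin (L.length + 1)) ≠ b from
          fun e => by simp [← e] at hb]
      · simp [show b = 0 from Fin.ext hb]
  | succ j ih =>
      obtain ⟨ih1, ih2⟩ := ih (by omega)
      have hlt : j < L.length := by omega
      rw [← List.take_concat_get' L j hlt]
      simp only [List.map_append, List.map_cons, List.map_nil, List.prod_append,
        List.prod_cons, List.prod_nil, mul_one, Units.val_mul, stepUnit_zpow R hc, mul_add,
        Matrix.add_apply, mul_smul_comm, Matrix.smul_apply]
      generalize ((L.take j).map fun s => stepUnit R hc s.1 ^ s.2).prod.val = P at ih1 ih2 ⊢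
      constructor
      · intro b hb
        rw [ih1 b (by omega), zero_add, Matrix.mul_apply, Finset.sum_eq_zero, smul_zero]
        intro a _
        simp only [stepMatrix]
        split_ifs with h
        · rw [ih1 a (by omega), zero_mul]
        · rw [mul_zero]
      · intro b hb
        rw [ih1 b (by omega), zero_add, Matrix.mul_apply,
          Finset.sum_eq_single (⟨j, by omega⟩ : Fin (L.length + 1))]
        · simp only [stepMatrix]
          rw [if_pos ⟨hb, by simp [hlt]⟩, mul_one, ih2 _ rfl]
          simp [mul_comm]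
        · intro a _ ha
          simp only [stepMatrix]
          split_ifs with h
          · exact absurd (Fin.ext (show a.val = j by omega)) ha
          · rw [mul_zero]
        · simp

lemma card_unitriangular (m : ℕ) [Finite R] :
    ∃ t : ℕ, Nat.card (unitriangular R m) = Nat.card R ^ t := by
  classical
  refine ⟨Nat.card {t : Fin m × Fin m // t.1.val < t.2.val}, ?_⟩
  rw [← Nat.card_fun]
  refine Nat.card_congr (Equiv.ofBijective
    (fun u t => u.1.val t.1.1 t.1.2) ⟨fun u v h => ?_, fun f => ?_⟩)
  · refine Subtype.ext (Units.ext (Matrix.ext fun i j => ?_))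
    rcases lt_or_ge i.val j.val with hij | hij
    · exact congrFun h ⟨(i, j), hij⟩
    · rw [u.2 i j hij, v.2 i j hij]
  · let A : Matrix (Fin m) (Fin m) R :=
      fun i j => if h : i.val < j.val then f ⟨(i, j), h⟩ else (1 : Matrix (Fin m) (Fin m) R) i j
    have hA : A.det = 1 := by
      rw [Matrix.det_of_isUpperTriangular]
      · simp [A]
      · intro i j hij
        have hij' : j.val < i.val := hij
        show dite _ _ _ = (0 : R)
        rw [dif_neg (by omega), Matrix.one_apply_ne (by intro e; subst e; omega)]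
    refine ⟨⟨((Matrix.isUnit_iff_isUnit_det A).2 (by rw [hA]; exact isUnit_one)).unit,
      fun i j hij => ?_⟩, funext fun t => ?_⟩
    · rw [IsUnit.unit_spec]; exact dif_neg (not_lt.2 hij)
    · exact (congrFun (congrFun (IsUnit.unit_spec ((Matrix.isUnit_iff_isUnit_det A).2
        (by rw [hA]; exact isUnit_one))) t.1.1) t.1.2).trans (dif_pos t.2)

/-- Free groups are residually finite p-groups. -/
theorem freeGroup_residually_p (p : ℕ) [Fact p.Prime] (x : FreeGroup α) (hx : x ≠ 1) :
    ∃ (P : Type) (_ : Group P) (_ : Finite P) (f : FreeGroup α →* P),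
      IsPGroup p P ∧ f x ≠ 1 := by
  classical
  -- syllables
  let e := freeGroupEquivCoprodI (ι := α)
  let w := Monoid.CoprodI.Word.equiv (e x)
  let toInt : (Σ _ : α, FreeGroup Unit) → α × ℤ := fun l =>
    (l.1, FreeGroup.freeGroupUnitEquivInt l.2)
  let L : List (α × ℤ) := w.toList.map toInt
  have hc : L.IsChain fun u v => u.1 ≠ v.1 := by
    rw [List.isChain_map]; exact w.chain_ne
  have hnz : ∀ s ∈ L, s.2 ≠ 0 := by
    intro s hs
    obtain ⟨l, hl, rfl⟩ := List.mem_map.1 hs
    intro h0
    apply w.ne_one l hl
    apply FreeGroup.freeGroupUnitEquivInt.injective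
    rw [show FreeGroup.freeGroupUnitEquivInt l.2 = 0 from h0]
    rfl
  have hx' : x = (L.map fun s => FreeGroup.of s.1 ^ s.2).prod := by
    apply e.injective
    rw [map_list_prod]
    have h1 : e x = w.prod := (Monoid.CoprodI.Word.equiv.symm_apply_apply (e x)).symm
    rw [h1, Monoid.CoprodI.Word.prod]
    simp only [L, List.map_map]
    congr 1
    refine List.map_congr_left fun l _ => ?_
    simp only [Function.comp_apply, toInt, map_zpow, e]
    rw [show freeGroupEquivCoprodI (FreeGroup.of l.1) =
      Monoid.CoprodI.of (i := l.1) (FreeGroup.of Unit.unit) by simp [freeGroupEquivCoprodI],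
      ← map_zpow]
    exact congrArg _ (FreeGroup.freeGroupUnitEquivInt.symm_apply_apply l.2).symm
  let N : ℤ := (L.map Prod.snd).prod
  have hN : N ≠ 0 := List.prod_ne_zero (by
    intro h; obtain ⟨s, hs, h0⟩ := List.mem_map.1 h; exact hnz s hs h0)
  let q := p ^ (N.natAbs + 1)
  have : NeZero q := ⟨pow_ne_zero _ (Fact.out : p.Prime).ne_zero⟩
  let U := unitriangular (ZMod q) (L.length + 1)
  let U' : Subgroup (Matrix (Fin (L.length + 1)) (Fin (L.length + 1)) (ZMod q))ˣ :=
    { U with
      inv_mem' := fun {u} hu => by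
        have : u⁻¹ ∈ Submonoid.powers u :=
          mem_powers_iff_mem_zpowers.2 (Subgroup.inv_mem _ (Subgroup.mem_zpowers u))
        exact (Submonoid.powers_le.2 hu : _ ≤ U) this }
  obtain ⟨t, ht⟩ := card_unitriangular (ZMod q) (L.length + 1)
  have hP : IsPGroup p U' := IsPGroup.of_card (n := (N.natAbs + 1) * t) (by
    rw [show Nat.card U' = Nat.card U from rfl, ht, Nat.card_zmod, ← pow_mul])
  have hgen : ∀ i, stepUnit (ZMod q) hc i ∈ U' := by
    intro i a b hab
    show (1 + stepMatrix L (ZMod q) i) a b = _
    rw [Matrix.add_apply, stepMatrix, if_neg (fun h => by omega), add_zero]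
  refine ⟨U', inferInstance, inferInstance, FreeGroup.lift fun i => ⟨_, hgen i⟩, hP, ?_⟩
  intro h
  have h1 := congrArg (fun u : U' => (u.1 : (Matrix (Fin (L.length + 1))
    (Fin (L.length + 1)) (ZMod q))ˣ).val 0 (Fin.last L.length)) h
  have h2 : ((FreeGroup.lift fun i => (⟨_, hgen i⟩ : U')) x).1 =
      ((L.take L.length).map fun s => stepUnit (ZMod q) hc s.1 ^ s.2).prod := by
    rw [List.take_length]
    conv_lhs => rw [hx']
    rw [map_list_prod, List.map_map, ← Subgroup.coe_subtype, map_list_prod, List.map_map]
    congr 1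
    refine List.map_congr_left fun s _ => ?_
    simp
  simp only [h2, OneMemClass.coe_one, Units.val_one] at h1
  rw [(row_zero (ZMod q) hc L.length le_rfl).2 _ rfl, List.take_length] at h1
  have hLne : (0 : Fin (L.length + 1)) ≠ Fin.last L.length := by
    intro e0
    have hL : L = [] := List.eq_nil_of_length_eq_zero (congrArg Fin.val e0).symm
    exact hx (by rw [hx', hL]; rfl)
  rw [Matrix.one_apply_ne hLne, ZMod.intCast_zmod_eq_zero_iff_dvd] at h1
  have h3 : q ≤ N.natAbs := Nat.le_of_dvd (Int.natAbs_pos.2 hN) (Int.natCast_dvd.1 h1)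
  have h4 : N.natAbs + 1 < q := Nat.lt_pow_self (Fact.out : p.Prime).one_lt
  omega

end Vale.Agent.P194
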