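import Mathlib

/-!
# P194: the augmentation ideal of a finite p-group is nilpotent in characteristic p
-/

open scoped Pointwise

namespace Vale.Agent.P194

variable (K : Type) [Field K]

/-- The sum of the coefficients. -/
noncomputable def aug (G : Type) [Group G] : MonoidAlgebra K G →ₐ[K] K :=
  MonoidAlgebra.lift K K G 1

/-- The augmentation ideal as a subspace. -/
noncomputable def omega (G : Type) [Group G] : Submodule K (MonoidAlgebra K G) :=
  LinearMap.ker (aug K G).toLinearMap

variable {K}

@[simp] lemma aug_single {G : Type} [Group G] (g : G) (c : K) :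
    aug K G (MonoidAlgebra.single g c) = c := by
  simp [aug]

lemma mem_omega {G : Type} [Group G] {x : MonoidAlgebra K G} :
    x ∈ omega K G ↔ aug K G x = 0 := Iff.rfl

lemma aug_map {G H : Type} [Group G] [Group H] (f : G →* H) (x : MonoidAlgebra K G) :
    aug K H (MonoidAlgebra.mapDomainAlgHom K K f x) = aug K G x := by
  have h : (aug K H).comp (MonoidAlgebra.mapDomainAlgHom K K f) = aug K G := by
    apply MonoidAlgebra.algHom_ext
    all_goals first
      | (intro g; simp [MonoidAlgebra.mapDomain_single])
      | (ext)
  exact congrArg (fun F : MonoidAlgebra K G →ₐ[K] K => F x) h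

/-- Kernel of the map to the quotient by a central cyclic subgroup. -/
lemma ker_quotient_zpowers {G : Type} [Group G] [Finite G] (z : G) (hz : z ∈ Subgroup.center G)
    [(Subgroup.zpowers z).Normal] (x : MonoidAlgebra K G)
    (hx : MonoidAlgebra.mapDomainAlgHom K K (QuotientGroup.mk' (Subgroup.zpowers z)) x = 0) :
    ∃ y, x = (MonoidAlgebra.single z (1 : K) - 1) * y := by
  classical
  let c : MonoidAlgebra K G := MonoidAlgebra.single z 1 - 1
  let I : Submodule K (MonoidAlgebra K G) := LinearMap.range (LinearMap.mulLeft K c)
  let Z := Subgroup.zpowers z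
  let q := MonoidAlgebra.mapDomainAlgHom K K (QuotientGroup.mk' Z)
  let s : MonoidAlgebra K (G ⧸ Z) →ₗ[K] MonoidAlgebra K G :=
    (Finsupp.lmapDomain K K (Quotient.out : G ⧸ Z → G) |>.comp
      (MonoidAlgebra.coeffLinearEquiv K).toLinearMap |> fun f =>
      (MonoidAlgebra.coeffLinearEquiv K).symm.toLinearMap.comp f)
  have key : ∀ g : G, ∀ a : K,
      MonoidAlgebra.single g a - s (q (MonoidAlgebra.single g a)) ∈ I := by
    intro g a
    have hg : g⁻¹ * (QuotientGroup.mk g : G ⧸ Z).out ∈ Z := by
      rw [← QuotientGroup.eq]
      exact (QuotientGroup.out_eq' _).symm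
    rw [← mem_powers_iff_mem_zpowers] at hg
    obtain ⟨i, hi⟩ := hg
    have ho : (QuotientGroup.mk g : G ⧸ Z).out = z ^ i * g := by
      have := congrArg (fun t => g * t) hi
      simp only [mul_inv_cancel_left] at this
      rw [← this]
      exact Subgroup.mem_center_iff.1 (Subgroup.pow_mem _ hz i) g
    refine ⟨-((∑ j ∈ Finset.range i, (MonoidAlgebra.single z (1 : K)) ^ j) *
      MonoidAlgebra.single g a), ?_⟩
    simp only [LinearMap.mulLeft_apply, c, mul_neg, ← mul_assoc, mul_geom_sum]
    simp [q, s, MonoidAlgebra.mapDomain_single, MonoidAlgebra.single_pow, sub_mul,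
      MonoidAlgebra.single_mul_single, ho, MonoidAlgebra.coeffLinearEquiv]
  have all : ∀ y, y - s (q y) ∈ I := by
    intro y
    induction y using MonoidAlgebra.induction_linear with
    | zero => simp
    | add u v hu hv =>
        rw [map_add, map_add, add_sub_add_comm]
        exact I.add_mem hu hv
    | single g a => exact key g a
  obtain ⟨y, hy⟩ := all x
  refine ⟨y, ?_⟩
  rw [show q x = 0 from hx, map_zero, sub_zero] at hy
  exact hy.symm

/-- The augmentation ideal of a finite p-group is nilpotent in characteristic p. -/
theorem omega_pow_eq_bot (p : ℕ) [Fact p.Prime] [CharP K p] :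
    ∀ (n : ℕ) (G : Type) [Group G] [Finite G], Nat.card G = n → IsPGroup p G →
      ∃ m : ℕ, omega K G ^ m = ⊥ := by
  intro n
  induction n using Nat.strong_induction_on with
  | _ n ih =>
  intro G _ _ hn hp
  rcases subsingleton_or_nontrivial G with hs | hnt
  · refine ⟨1, ?_⟩
    rw [pow_one, eq_bot_iff]
    intro x hx
    have hx1 : x = MonoidAlgebra.single 1 (aug K G x) := by
      clear hx
      induction x using MonoidAlgebra.induction_linear with
      | zero => simp
      | add u v hu hv => rw [map_add, MonoidAlgebra.single_add, ← hu, ← hv]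
      | single g a => rw [aug_single, Subsingleton.elim g 1]
    rw [hx1, mem_omega.1 hx]
    simp
  · have hc : Nontrivial (Subgroup.center G) := hp.center_nontrivial
    have hd : p ∣ Nat.card (Subgroup.center G) := by
      obtain ⟨k, hk, hk'⟩ := (hp.to_subgroup (Subgroup.center G)).nontrivial_iff_card.1 hc
      exact hk' ▸ dvd_pow_self p hk.ne'
    obtain ⟨z, hz⟩ := exists_prime_orderOf_dvd_card' p hd
    let Z := Subgroup.zpowers (z : G)
    have hzc : (z : G) ∈ Subgroup.center G := z.2
    have : Z.Normal := ⟨fun a ha g => by
      have : Z ≤ Subgroup.center G := Subgroup.zpowers_le.2 hzc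
      rw [Subgroup.mem_center_iff.1 (this ha) g, mul_inv_cancel_right]
      exact ha⟩
    have ho : orderOf (z : G) = p := by rw [Subgroup.orderOf_coe]; exact hz
    have hlt : Nat.card (G ⧸ Z) < n := by
      have h1 := Subgroup.card_eq_card_quotient_mul_card_subgroup Z
      have h2 : Nat.card Z = p := by rw [Nat.card_zpowers, ho]
      have h3 : 0 < Nat.card (G ⧸ Z) := Nat.card_pos
      have h4 := (Fact.out : p.Prime).two_le
      subst hn
      rw [h2] at h1
      nlinarith
    obtain ⟨m, hm⟩ := ih _ hlt (G ⧸ Z) rfl (hp.to_quotient Z)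
    let q := MonoidAlgebra.mapDomainAlgHom K K (QuotientGroup.mk' Z)
    let c : MonoidAlgebra K G := MonoidAlgebra.single (z : G) 1 - 1
    have hcc : ∀ y, Commute c y := by
      intro y
      refine Commute.sub_left ?_ (Commute.one_left y)
      induction y using MonoidAlgebra.induction_linear with
      | zero => exact Commute.zero_right _
      | add u v hu hv => exact hu.add_right hv
      | single g a =>
          rw [Commute, SemiconjBy, MonoidAlgebra.single_mul_single,
            MonoidAlgebra.single_mul_single, Subgroup.mem_center_iff.1 hzc g, one_mul, mul_one]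
    have hmem : ∀ x ∈ omega K G ^ m, ∃ y, x = c * y := by
      intro x hx
      apply ker_quotient_zpowers (z : G) hzc
      have h1 : (omega K G ^ m).map q.toLinearMap ≤ omega K (G ⧸ Z) ^ m := by
        rw [Submodule.map_pow]
        refine pow_le_pow_left' ?_ m
        rintro _ ⟨u, hu, rfl⟩
        exact mem_omega.2 ((aug_map _ u).trans (mem_omega.1 hu))
      have := h1 ⟨x, hx, rfl⟩
      rwa [hm, Submodule.mem_bot] at this
    have hpow : ∀ j : ℕ, omega K G ^ (m * j) ≤
        LinearMap.range (LinearMap.mulLeft K (c ^ j)) := by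
      intro j
      induction j with
      | zero => intro x _; exact ⟨x, by simp⟩
      | succ j ihj =>
          rw [Nat.mul_succ, pow_add]
          rw [Submodule.mul_le]
          intro u hu v hv
          obtain ⟨a, rfl⟩ := ihj hu
          obtain ⟨b, rfl⟩ := hmem v hv
          refine ⟨a * b, ?_⟩
          simp only [LinearMap.mulLeft_apply, pow_succ, mul_assoc]
          congr 1
          rw [← mul_assoc, ← mul_assoc, (hcc a).eq]
    refine ⟨m * p, eq_bot_iff.2 ((hpow p).trans ?_)⟩
    rintro _ ⟨y, rfl⟩
    have : CharP (MonoidAlgebra K G) p := charP_of_injective_algebraMap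
      (algebraMap K (MonoidAlgebra K G)).injective p
    have hcp : c ^ p = 0 := by
      show (MonoidAlgebra.single (z : G) (1 : K) - 1) ^ p = 0
      rw [sub_pow_char_of_commute (p := p) (h := Commute.one_right _), MonoidAlgebra.single_pow,
        one_pow, one_pow, ← ho, pow_orderOf_eq_one, MonoidAlgebra.one_def, sub_self]
    simp [hcp]

end Vale.Agent.P194
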