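import Mathlib

/-!
# P194: the notions used in the statement
-/

namespace Vale.Agent.P194

/-- All matrix rings over the group algebra are directly finite. -/
def StablyFinite (K : Type) [Field K] (G : Type) [Group G] : Prop :=
  ∀ (n : ℕ) (a b : Matrix (Fin n) (Fin n) (MonoidAlgebra K G)), a * b = 1 → b * a = 1

open scoped Classical in
/-- Sofic groups: almost actions on finite sets, almost free on given finite subsets. -/
def IsSofic (Q : Type) [Group Q] : Prop :=
  ∀ (F : Finset Q) (ε : ℝ), 0 < ε → ∃ (k : ℕ) (φ : Q → Equiv.Perm (Fin k)), 0 < k ∧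
    ∀ g ∈ F, ∀ h ∈ F,
      ((Finset.univ.filter fun x => φ (g * h) x ≠ φ g (φ h x)).card : ℝ) ≤ ε * k ∧
      (g ≠ h → ((Finset.univ.filter fun x => φ g x = φ h x).card : ℝ) ≤ ε * k)

/-- Every finitely generated subgroup of N is residually a finite p-group. -/
def LocallyResiduallyP (p : ℕ) {G : Type} [Group G] (N : Subgroup G) : Prop :=
  ∀ H : Subgroup G, H ≤ N → H.FG → ∀ h : H, h ≠ 1 →
    ∃ (P : Type) (_ : Group P) (_ : Finite P) (f : H →* P), IsPGroup p P ∧ f h ≠ 1

end Vale.Agent.P194
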