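import Vale.Agent.P194.Aug
import Vale.Agent.P194.Defs

/-!
# P194: stable finiteness passes through a locally residually-p normal subgroup
-/

namespace Vale.Agent.P194

open MonoidAlgebra

variable {K : Type} [Field K] {G : Type} [Group G]

/-- The coefficient at the coset H r, as an element of the group algebra of H. -/
noncomputable def cosetCoeff (H : Subgroup G) (r : G) :
    MonoidAlgebra K G →ₗ[K] MonoidAlgebra K H where
  toFun x := ofCoeff (Finsupp.comapDomain (fun h : H => (h : G) * r) x.coeff
    (by intro a _ b _ hab; exact Subtype.ext (mul_right_cancel hab)))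
  map_add' x y := by ext h; simp [Finsupp.comapDomain]
  map_smul' c x := by ext h; simp [Finsupp.comapDomain]

@[simp] lemma cosetCoeff_apply (H : Subgroup G) (r : G) (x : MonoidAlgebra K G) (h : H) :
    (cosetCoeff H r x).coeff h = x.coeff ((h : G) * r) := by
  simp [cosetCoeff, Finsupp.comapDomain]

/-- The inclusion of the group algebra of a subgroup. -/
noncomputable def incl (H : Subgroup G) : MonoidAlgebra K H →ₐ[K] MonoidAlgebra K G :=
  mapDomainAlgHom K K H.subtype

lemma incl_single (H : Subgroup G) (h : H) (c : K) :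
    incl H (single h c) = single (h : G) c := by
  simp [incl, mapDomain_single]

lemma cosetCoeff_incl_mul (H : Subgroup G) (r : G) (u : MonoidAlgebra K H)
    (x : MonoidAlgebra K G) : cosetCoeff H r (incl H u * x) = u * cosetCoeff H r x := by
  induction u using MonoidAlgebra.induction_linear with
  | zero => simp
  | add u v hu hv => rw [map_add, add_mul, map_add, add_mul, hu, hv]
  | single g a =>
      ext h
      rw [incl_single, cosetCoeff_apply, coeff_single_mul_apply, coeff_single_mul_apply,
        cosetCoeff_apply]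
      simp [mul_assoc]

/-- The augmentation of a coset coefficient is the coefficient in the quotient. -/
lemma aug_cosetCoeff (N : Subgroup G) [N.Normal] (H : Subgroup G) (hH : H ≤ N) (r : G)
    (x : MonoidAlgebra K G)
    (hx : ∀ s ∈ x.coeff.support, s * r⁻¹ ∈ N → s * r⁻¹ ∈ H) :
    aug K H (cosetCoeff H r x) =
      (mapDomainAlgHom K K (QuotientGroup.mk' N) x).coeff (QuotientGroup.mk r) := by
  classical
  have h1 : x = x.coeff.sum single := (sum_coeff_single x).symm
  rw [h1, map_finsuppSum, map_finsuppSum, map_finsuppSum, coeff_finsuppSum,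
    Finsupp.sum_apply]
  refine Finset.sum_congr rfl fun s hs => ?_
  simp only [mapDomainAlgHom_apply, mapDomain_single, coeff_single, QuotientGroup.mk'_apply]
  by_cases hN : s * r⁻¹ ∈ N
  · have he : (QuotientGroup.mk s : G ⧸ N) = QuotientGroup.mk r :=
      (QuotientGroup.eq_iff_div_mem).2 (by simpa [div_eq_mul_inv] using hN)
    have hc : cosetCoeff H r (single s (x.coeff s)) =
        single ⟨s * r⁻¹, hx s hs hN⟩ (x.coeff s) := by
      ext h
      simp only [cosetCoeff_apply, coeff_single]
      by_cases hh : (h : G) * r = s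
      · subst hh; simp
      · rw [Finsupp.single_eq_of_ne hh, Finsupp.single_eq_of_ne]
        intro e; apply hh; simp [e]
    rw [hc, aug_single, he, Finsupp.single_eq_same]
  · have he : (QuotientGroup.mk r : G ⧸ N) ≠ QuotientGroup.mk s := fun e => hN (by
      simpa [div_eq_mul_inv] using QuotientGroup.eq_iff_div_mem.1 e.symm)
    have hc : cosetCoeff H r (single s (x.coeff s)) = 0 := by
      ext h
      simp only [cosetCoeff_apply, coeff_single, coeff_zero, Finsupp.zero_apply]
      rw [Finsupp.single_eq_of_ne]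
      intro e; apply hN; rw [← e]; simpa using hH h.2
    rw [hc, map_zero, Finsupp.single_eq_of_ne he]

/-- An element is rebuilt from its coset coefficients. -/
lemma sum_cosets (H : Subgroup G) (T : Finset G) (x : MonoidAlgebra K G)
    (hT : ∀ q ∈ T, ∀ q' ∈ T, q * q'⁻¹ ∈ H → q = q')
    (hx : ∀ s ∈ x.coeff.support, ∃ q ∈ T, s * q⁻¹ ∈ H) :
    ∑ q ∈ T, incl H (cosetCoeff H q x) * single q 1 = x := by
  classical
  ext s
  have term : ∀ q : G, (incl H (cosetCoeff H q x) * single q 1).coeff s =
      if s * q⁻¹ ∈ H then x.coeff s else 0 := by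
    intro q
    rw [coeff_mul_single_apply, mul_one]
    show (Finsupp.mapDomain H.subtype (cosetCoeff H q x).coeff) _ = _
    by_cases hs : s * q⁻¹ ∈ H
    · rw [if_pos hs, show s * q⁻¹ = H.subtype ⟨_, hs⟩ from rfl,
        Finsupp.mapDomain_apply H.subtype_injective, cosetCoeff_apply]
      simp
    · rw [if_neg hs, Finsupp.mapDomain_of_notMem_range]
      rintro ⟨y, hy⟩; exact hs (hy ▸ y.2)
  rw [coeff_sum, Finsupp.finsetSum_apply, Finset.sum_congr rfl fun q _ => term q]
  by_cases h0 : x.coeff s = 0
  · simp [h0]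
  obtain ⟨q, hq, hqs⟩ := hx s (Finsupp.mem_support_iff.2 h0)
  rw [Finset.sum_eq_single q ?_ (fun h => absurd hq h), if_pos hqs]
  intro q' hq' hne
  rw [if_neg]
  intro h
  refine hne (hT q' hq' q hq ?_)
  simpa [mul_assoc] using H.mul_mem (H.inv_mem h) hqs

/-- Finitely many nontrivial elements are detected by one map to a finite p-group. -/
lemma separate (p : ℕ) (H : Type) [Group H]
    (h : ∀ x : H, x ≠ 1 → ∃ (P : Type) (_ : Group P) (_ : Finite P) (f : H →* P),
      IsPGroup p P ∧ f x ≠ 1) (D : Finset H) :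
    ∃ (P : Type) (_ : Group P) (_ : Finite P) (f : H →* P),
      IsPGroup p P ∧ ∀ x ∈ D, x ≠ 1 → f x ≠ 1 := by
  classical
  induction D using Finset.induction_on with
  | empty =>
      exact ⟨PUnit, inferInstance, inferInstance, 1, fun g => ⟨0, rfl⟩, by simp⟩
  | insert x D _ ih =>
      obtain ⟨P, _, _, f, hP, hf⟩ := ih
      by_cases hx : x = 1
      · refine ⟨P, inferInstance, inferInstance, f, hP, fun y hy hy1 => ?_⟩
        rcases Finset.mem_insert.1 hy with rfl | hy
        · exact absurd hx hy1
        · exact hf y hy hy1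
      obtain ⟨P', _, _, f', hP', hf'⟩ := h x hx
      refine ⟨P × P', inferInstance, inferInstance, f.prod f', ?_, ?_⟩
      · intro g
        obtain ⟨i, hi⟩ := hP g.1
        obtain ⟨j, hj⟩ := hP' g.2
        refine ⟨i + j, Prod.ext ?_ ?_⟩
        · simp [pow_add, pow_mul, hi]
        · simp [pow_add, mul_comm (p ^ i), pow_mul, hj]
      · intro y hy hy1 he
        simp only [MonoidHom.prod_apply, Prod.ext_iff, Prod.fst_one, Prod.snd_one] at he
        rcases Finset.mem_insert.1 hy with rfl | hy
        · exact hf' he.2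
        · exact hf y hy hy1 he.1

/-- An idempotent matrix killed by the quotient map is zero. -/
theorem idempotent_eq_zero (p : ℕ) [Fact p.Prime] [CharP K p] (N : Subgroup G) [N.Normal]
    (hN : LocallyResiduallyP p N) {n : ℕ} (E : Matrix (Fin n) (Fin n) (MonoidAlgebra K G))
    (hE : E * E = E) (h0 : E.map (mapDomainAlgHom K K (QuotientGroup.mk' N)) = 0) : E = 0 := by
  classical
  let S : Finset G := Finset.univ.biUnion fun i => Finset.univ.biUnion fun j =>
    (E i j).coeff.support
  have hS : ∀ i j, ∀ s ∈ (E i j).coeff.support, s ∈ S := fun i j s hs =>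
    Finset.mem_biUnion.2 ⟨i, Finset.mem_univ _, Finset.mem_biUnion.2 ⟨j, Finset.mem_univ _, hs⟩⟩
  let R : G ⧸ N → G := fun c => if h : ∃ s ∈ S, QuotientGroup.mk s = c then h.choose else 1
  let T : Finset G := (S.image fun s => (QuotientGroup.mk s : G ⧸ N)).image R
  let U : Finset G :=
    insert 1 T
  let gens : Finset G := ((U ×ˢ S ×ˢ U).image fun t => t.1 * t.2.1 * t.2.2⁻¹).filter fun g => g ∈ N
  let H : Subgroup G := Subgroup.closure (gens : Set G)
  have hHN : H ≤ N := by
    rw [Subgroup.closure_le]
    intro g hg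
    exact (Finset.mem_filter.1 hg).2
  have hHmem : ∀ u ∈ U, ∀ s ∈ S, ∀ r ∈ U, u * s * r⁻¹ ∈ N → u * s * r⁻¹ ∈ H := by
    intro u hu s hs r hr hn
    exact Subgroup.subset_closure (Finset.mem_filter.2
      ⟨Finset.mem_image.2 ⟨(u, s, r), by simp [hu, hs, hr], rfl⟩, hn⟩)
  have hR : ∀ s ∈ S, (QuotientGroup.mk (R (QuotientGroup.mk s)) : G ⧸ N) = QuotientGroup.mk s := by
    intro s hs
    have hex : ∃ t ∈ S, (QuotientGroup.mk t : G ⧸ N) = QuotientGroup.mk s := ⟨s, hs, rfl⟩
    simp only [R, dif_pos hex]
    exact hex.choose_spec.2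
  have hT : ∀ q ∈ T, ∀ q' ∈ T, q * q'⁻¹ ∈ H → q = q' := by
    intro q hq q' hq' hqq
    simp only [T, Finset.mem_image] at hq hq'
    obtain ⟨c, ⟨s, hs, rfl⟩, rfl⟩ := hq
    obtain ⟨c', ⟨s', hs', rfl⟩, rfl⟩ := hq'
    have := (QuotientGroup.eq_iff_div_mem (N := N)).2 (by
      simpa [div_eq_mul_inv] using hHN hqq)
    rw [hR s hs, hR s' hs'] at this
    rw [this]
  have hcov : ∀ i j, ∀ s ∈ (E i j).coeff.support, ∃ q ∈ T, s * q⁻¹ ∈ H := by
    intro i j s hs
    refine ⟨R (QuotientGroup.mk s), Finset.mem_image_of_mem _ (Finset.mem_image_of_mem _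
      (hS i j s hs)), ?_⟩
    have := hHmem 1 (by simp [U]) s (hS i j s hs) (R (QuotientGroup.mk s))
      (Finset.mem_insert_of_mem (Finset.mem_image_of_mem _ (Finset.mem_image_of_mem _
        (hS i j s hs)))) (by
        simpa [div_eq_mul_inv] using
          (QuotientGroup.eq_iff_div_mem (N := N)).1 (hR s (hS i j s hs)).symm)
    simpa using this
  -- augmentations of shifted coset coefficients vanish
  have haug : ∀ q ∈ U, ∀ r ∈ T, ∀ i j, aug K H (cosetCoeff H r (single q 1 * E i j)) = 0 := by
    intro q hq r hr i j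
    rw [aug_cosetCoeff N H hHN r]
    · have h := congrFun (congrFun h0 i) j
      simp only [Matrix.map_apply, Matrix.zero_apply] at h
      rw [map_mul, h, mul_zero]
      simp
    · intro s hs hsN
      rw [Finsupp.mem_support_iff, coeff_single_mul_apply, one_mul] at hs
      have := hHmem q hq (q⁻¹ * s) (hS i j _ (Finsupp.mem_support_iff.2 hs)) r
        (Finset.mem_insert_of_mem hr) (by simpa [mul_assoc] using hsN)
      simpa [mul_assoc] using this
  have hrec : ∀ r, ∀ i j, cosetCoeff H r (E i j) =
      ∑ l, ∑ q ∈ T, cosetCoeff H q (E i l) * cosetCoeff H r (single q 1 * E l j) := by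
    intro r i j
    calc cosetCoeff H r (E i j) = cosetCoeff H r (∑ l, E i l * E l j) := by
          rw [← Matrix.mul_apply, hE]
      _ = ∑ l, cosetCoeff H r (E i l * E l j) := map_sum _ _ _
      _ = _ := Finset.sum_congr rfl fun l _ => by
          conv_lhs => rw [← sum_cosets H T (E i l) hT (hcov i l), Finset.sum_mul, map_sum]
          exact Finset.sum_congr rfl fun q _ => by
            rw [mul_assoc, cosetCoeff_incl_mul]
  have hFG : H.FG := ⟨gens, rfl⟩
  have hzero : ∀ r ∈ T, ∀ i j, cosetCoeff H r (E i j) = 0 := by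
    intro r hr i j
    by_contra hne
    let x := cosetCoeff H r (E i j)
    obtain ⟨h₀, hh₀⟩ : ∃ h₀, x.coeff h₀ ≠ 0 := by
      by_contra hall
      exact hne (MonoidAlgebra.ext (Finsupp.ext fun h => not_not.1 fun he => hall ⟨h, he⟩))
    obtain ⟨P, _, _, f, hP, hf⟩ := separate p H (hN H hHN hFG)
      (x.coeff.support.image fun h => h₀⁻¹ * h)
    let ψ := mapDomainAlgHom K K f
    have hall : ∀ m : ℕ, ∀ q ∈ T, ∀ i j, ψ (cosetCoeff H q (E i j)) ∈ omega K P ^ (m + 1) := by
      intro m
      induction m with
      | zero =>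
          intro q hq i j
          rw [zero_add, pow_one, mem_omega, aug_map]
          have := haug 1 (Finset.mem_insert_self _ _) q hq i j
          rwa [← one_def, one_mul] at this
      | succ m ih =>
          intro q hq i j
          rw [hrec q i j, map_sum]
          refine Submodule.sum_mem _ fun l _ => ?_
          rw [map_sum]
          refine Submodule.sum_mem _ fun t ht => ?_
          rw [map_mul, pow_succ]
          refine Submodule.mul_mem_mul (ih t ht i l) (mem_omega.2 ?_)
          rw [aug_map]
          exact haug t (Finset.mem_insert_of_mem ht) q hq l j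
    obtain ⟨m, hm⟩ := omega_pow_eq_bot (K := K) p (Nat.card P) P rfl hP
    have h1 := hall m r hr i j
    rw [pow_succ, hm, Submodule.bot_mul, Submodule.mem_bot] at h1
    have h2 : (ψ x).coeff (f h₀) = x.coeff h₀ := by
      show Finsupp.mapDomain f x.coeff (f h₀) = _
      rw [Finsupp.mapDomain, Finsupp.sum_apply, Finsupp.sum,
        Finset.sum_eq_single h₀]
      · simp
      · intro h hh hne'
        rw [Finsupp.single_eq_of_ne]
        intro e
        refine hf (h₀⁻¹ * h) (Finset.mem_image_of_mem _ hh) ?_ (by simp [e])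
        rwa [Ne, inv_mul_eq_one, eq_comm]
      · simp [hh₀]
    rw [show ψ x = 0 from h1] at h2
    exact hh₀ (by simpa using h2.symm)
  ext1 i j
  rw [← sum_cosets H T (E i j) hT (hcov i j)]
  exact Finset.sum_eq_zero fun q hq => by simp [hzero q hq i j]

/-- Stable finiteness lifts from the quotient. -/
theorem stablyFinite_of_quotient (p : ℕ) [Fact p.Prime] [CharP K p] (N : Subgroup G) [N.Normal]
    (hN : LocallyResiduallyP p N) (hQ : StablyFinite K (G ⧸ N)) : StablyFinite K G := by
  intro n a b hab
  let π : MonoidAlgebra K G →+* MonoidAlgebra K (G ⧸ N) :=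
    (mapDomainAlgHom K K (QuotientGroup.mk' N)).toRingHom
  have hE : (1 - b * a) * (1 - b * a) = 1 - b * a := by
    have : b * a * (b * a) = b * a := by
      rw [mul_assoc, ← mul_assoc a b a, hab, one_mul]
    rw [sub_mul, one_mul, mul_sub, mul_one, this, sub_self, sub_zero]
  have h0 : π.mapMatrix (1 - b * a) = 0 := by
    have h1 : π.mapMatrix a * π.mapMatrix b = 1 := by rw [← map_mul, hab, map_one]
    rw [map_sub, map_one, map_mul, hQ n _ _ h1, sub_self]
  exact (sub_eq_zero.1 (idempotent_eq_zero p N hN _ hE (by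
    simpa [π, RingHom.mapMatrix_apply] using h0))).symm

end Vale.Agent.P194
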