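import Vale.Agent.P194.Defs
import Vale.Agent.P194.FreeP

/-!
# P194: kernels covered by the extension theorem
-/

namespace Vale.Agent.P194

variable {G : Type} [Group G]

/-- Free normal subgroups are locally residually p. -/
theorem locallyResiduallyP_of_free (p : ℕ) [Fact p.Prime] (N : Subgroup G) [IsFreeGroup N] :
    LocallyResiduallyP p N := by
  intro H hH _ h hh
  let e := IsFreeGroup.toFreeGroup N
  have hne : e (Subgroup.inclusion hH h) ≠ 1 := by
    intro he
    apply hh
    apply Subgroup.inclusion_injective hH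
    rw [map_one]
    exact e.injective (by rw [he, map_one])
  obtain ⟨P, _, _, f, hP, hf⟩ := freeGroup_residually_p p _ hne
  exact ⟨P, inferInstance, inferInstance, f.comp (e.toMonoidHom.comp (Subgroup.inclusion hH)),
    hP, hf⟩

/-- Torsion-free abelian subgroups are locally residually p. -/
theorem locallyResiduallyP_of_abelian (p : ℕ) [Fact p.Prime] (N : Subgroup G)
    (hc : ∀ a ∈ N, ∀ b ∈ N, a * b = b * a) (ht : ∀ a ∈ N, IsOfFinOrder a → a = 1) :
    LocallyResiduallyP p N := by
  intro H hH hFG h hh
  let _ : CommGroup H :=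
    { (inferInstance : Group H) with
      mul_comm := fun a b => Subtype.ext (hc a (hH a.2) b (hH b.2)) }
  have : Group.FG H := (Group.fg_iff_subgroup_fg H).2 hFG
  have : Module.Finite ℤ (Additive H) := Module.Finite.iff_addGroup_fg.2 inferInstance
  have hz : ∀ (n : ℕ) (x : H), 0 < n → x ^ n = 1 → x = 1 := fun n x hn hx =>
    Subtype.ext (ht x (hH x.2) (isOfFinOrder_iff_pow_eq_one.2
      ⟨n, hn, by simpa using congrArg Subtype.val hx⟩))
  have : Module.IsTorsionFree ℤ (Additive H) := by
    rw [Module.isTorsionFree_iff_smul_eq_zero]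
    intro c x hcx
    by_contra hne
    simp only [not_or] at hne
    apply hne.2
    rw [← ofMul_toMul x]
    refine congrArg Additive.ofMul (?_ : x.toMul = 1)
    have h1 : (c.natAbs : ℕ) • x = 0 := by
      rcases Int.natAbs_eq c with e | e
      · rw [e, natCast_zsmul] at hcx; exact hcx
      · rw [e, neg_smul, natCast_zsmul, neg_eq_zero] at hcx; exact hcx
    exact hz _ x.toMul (Int.natAbs_pos.2 hne.1) (congrArg Additive.toMul h1)
  have : Module.Free ℤ (Additive H) := Module.free_of_finite_type_torsion_free'
  let b := Module.Free.chooseBasis ℤ (Additive H)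
  obtain ⟨i, hi⟩ : ∃ i, b.coord i (Additive.ofMul h) ≠ 0 := by
    by_contra hall
    simp only [not_exists, not_not] at hall
    exact hh (b.forall_coord_eq_zero_iff.1 hall)
  let q := p ^ ((b.coord i (Additive.ofMul h)).natAbs + 1)
  have : NeZero q := ⟨pow_ne_zero _ (Fact.out : p.Prime).ne_zero⟩
  let f : H →* Multiplicative (ZMod q) :=
    AddMonoidHom.toMultiplicativeRight
      ((Int.castAddHom (ZMod q)).comp (b.coord i).toAddMonoidHom)
  refine ⟨Multiplicative (ZMod q), inferInstance, inferInstance, f,
    IsPGroup.of_card (n := (b.coord i (Additive.ofMul h)).natAbs + 1) (by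
      rw [Nat.card_congr Multiplicative.toAdd, Nat.card_zmod]), ?_⟩
  intro he
  have h1 : ((b.coord i (Additive.ofMul h) : ℤ) : ZMod q) = 0 := congrArg Multiplicative.toAdd he
  rw [ZMod.intCast_zmod_eq_zero_iff_dvd] at h1
  have h3 := Nat.le_of_dvd (Int.natAbs_pos.2 hi) (Int.natCast_dvd.1 h1)
  have h4 : (b.coord i (Additive.ofMul h)).natAbs + 1 < q :=
    Nat.lt_pow_self (Fact.out : p.Prime).one_lt
  omega

end Vale.Agent.P194
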