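import Vale.Agent.P194.Defs

/-!
# P194: sofic groups have stably finite group algebras over every field
-/

namespace Vale.Agent.P194

open MonoidAlgebra

variable {K : Type} [Field K]

/-- The rank of 1 - AB does not depend on the order of the factors. -/
lemma rank_one_sub_mul_comm {m : Type} [Fintype m] [DecidableEq m] (A B : Matrix m m K) :
    (1 - A * B).rank = (1 - B * A).rank := by
  have inj : ∀ A B : Matrix m m K,
      Module.finrank K (LinearMap.ker (1 - A * B).mulVecLin) ≤
        Module.finrank K (LinearMap.ker (1 - B * A).mulVecLin) := by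
    intro A B
    have hmem : ∀ v ∈ LinearMap.ker (1 - A * B).mulVecLin,
        B.mulVecLin v ∈ LinearMap.ker (1 - B * A).mulVecLin := by
      intro v hv
      simp only [LinearMap.mem_ker, Matrix.mulVecLin_apply, Matrix.sub_mulVec, Matrix.one_mulVec,
        sub_eq_zero] at hv ⊢
      rw [← Matrix.mulVec_mulVec] at hv
      rw [← Matrix.mulVec_mulVec, ← hv]
    refine LinearMap.finrank_le_finrank_of_injective (f := B.mulVecLin.restrict hmem) ?_
    intro v w h
    have h' : B.mulVec v.1 = B.mulVec w.1 := congrArg Subtype.val h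
    have hv := v.2
    have hw := w.2
    simp only [LinearMap.mem_ker, Matrix.mulVecLin_apply, Matrix.sub_mulVec, Matrix.one_mulVec,
      sub_eq_zero, ← Matrix.mulVec_mulVec] at hv hw
    exact Subtype.ext (by rw [hv, hw, h'])
  have h1 := LinearMap.finrank_range_add_finrank_ker (1 - A * B).mulVecLin
  have h2 := LinearMap.finrank_range_add_finrank_ker (1 - B * A).mulVecLin
  have h3 := le_antisymm (inj A B) (inj B A)
  rw [Matrix.rank, Matrix.rank]
  omega

/-- A matrix has rank at most the number of its nonzero columns. -/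
lemma rank_le_card_of_cols {m : Type} [Fintype m] [DecidableEq m] (A : Matrix m m K)
    (s : Finset m) (h : ∀ j ∉ s, ∀ i, A i j = 0) : A.rank ≤ s.card := by
  classical
  rw [Matrix.rank_eq_finrank_span_cols]
  refine (Submodule.finrank_mono ?_).trans ((finrank_span_finset_le_card (R := K)
    (s.image A.col)).trans Finset.card_image_le)
  rw [Submodule.span_le]
  rintro _ ⟨j, rfl⟩
  by_cases hj : j ∈ s
  · exact Submodule.subset_span (by simpa using ⟨j, hj, rfl⟩)
  · rw [show A.col j = 0 from funext fun i => h j hj i]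
    exact Submodule.zero_mem _

variable {Q : Type} [Group Q] {k : ℕ}

/-- The column at y of the almost action. -/
noncomputable def colVec (φ : Q → Equiv.Perm (Fin k)) (y : Fin k) :
    MonoidAlgebra K Q →ₗ[K] (Fin k → K) :=
  (Finsupp.linearCombination K fun g => Pi.single (φ g y) (1 : K)).comp
    (coeffLinearEquiv K).toLinearMap

lemma colVec_eq_sum (φ : Q → Equiv.Perm (Fin k)) (y : Fin k) (x : MonoidAlgebra K Q)
    (F : Finset Q) (hF : x.coeff.support ⊆ F) :
    colVec φ y x = ∑ g ∈ F, x.coeff g • Pi.single (φ g y) (1 : K) := by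
  simp only [colVec, LinearMap.comp_apply, LinearEquiv.coe_coe, Finsupp.linearCombination_apply]
  exact Finsupp.sum_of_support_subset _ hF _ (fun g _ => by simp)

/-- The matrix of the almost action. -/
noncomputable def opMatrix (φ : Q → Equiv.Perm (Fin k)) {n : ℕ}
    (a : Matrix (Fin n) (Fin n) (MonoidAlgebra K Q)) :
    Matrix (Fin n × Fin k) (Fin n × Fin k) K :=
  fun r c => colVec φ c.2 (a r.1 c.1) r.2

lemma colVec_mul (φ : Q → Equiv.Perm (Fin k)) (F : Finset Q) (y : Fin k)
    (hy : ∀ g ∈ F, ∀ h ∈ F, φ (g * h) y = φ g (φ h y)) (a b : MonoidAlgebra K Q)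
    (ha : a.coeff.support ⊆ F) (hb : b.coeff.support ⊆ F) (x : Fin k) :
    colVec φ y (a * b) x = ∑ z, colVec φ z a x * colVec φ y b z := by
  classical
  have hab : a * b = ∑ g ∈ F, ∑ h ∈ F, single (g * h) (a.coeff g * b.coeff h) := by
    have expand : ∀ c : MonoidAlgebra K Q, c.coeff.support ⊆ F →
        c = ∑ g ∈ F, single g (c.coeff g) := by
      intro c hc
      conv_lhs => rw [← sum_coeff_single c]
      exact Finsupp.sum_of_support_subset _ hc _ (fun g _ => by simp)
    conv_lhs => rw [expand a ha, expand b hb]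
    simp only [Finset.sum_mul, Finset.mul_sum, single_mul_single]
    rw [Finset.sum_comm]
  have hs : ∀ (g : Q) (c : K), colVec φ y (single g c) = c • Pi.single (φ g y) (1 : K) := by
    intro g c
    simp [colVec]
  have hz : ∀ z, colVec φ y b z = ∑ h ∈ F, b.coeff h * (if z = φ h y then 1 else 0) := by
    intro z
    rw [colVec_eq_sum φ y b F hb, Finset.sum_apply]
    simp [Pi.single_apply]
  simp only [hz, Finset.mul_sum]
  rw [Finset.sum_comm, hab, map_sum, Finset.sum_apply]
  simp only [map_sum, Finset.sum_apply, hs]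
  rw [Finset.sum_comm]
  refine Finset.sum_congr rfl fun h hh => ?_
  rw [Finset.sum_eq_single (φ h y) (fun z _ hz' => by simp [hz'])
    (fun hne => absurd (Finset.mem_univ _) hne)]
  rw [colVec_eq_sum φ (φ h y) a F ha, Finset.sum_apply, if_pos rfl, mul_one, Finset.sum_mul]
  refine Finset.sum_congr rfl fun g hg => ?_
  simp only [Pi.smul_apply, smul_eq_mul]
  rw [hy g hg h hh]
  ring

lemma opMatrix_mul_col (φ : Q → Equiv.Perm (Fin k)) (F : Finset Q) {n : ℕ}
    (a b : Matrix (Fin n) (Fin n) (MonoidAlgebra K Q))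
    (ha : ∀ i j, (a i j).coeff.support ⊆ F) (hb : ∀ i j, (b i j).coeff.support ⊆ F)
    (c : Fin n × Fin k) (hy : ∀ g ∈ F, ∀ h ∈ F, φ (g * h) c.2 = φ g (φ h c.2))
    (r : Fin n × Fin k) :
    (opMatrix φ a * opMatrix φ b) r c = opMatrix φ (a * b) r c := by
  simp only [Matrix.mul_apply, opMatrix, map_sum, Finset.sum_apply]
  rw [Fintype.sum_prod_type]
  exact Finset.sum_congr rfl fun l _ => (colVec_mul φ F c.2 hy _ _ (ha _ _) (hb _ _) r.2).symm

lemma opMatrix_one_col (φ : Q → Equiv.Perm (Fin k)) {n : ℕ} (c : Fin n × Fin k)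
    (h1 : φ 1 c.2 = c.2) (r : Fin n × Fin k) :
    opMatrix (K := K) φ (1 : Matrix (Fin n) (Fin n) (MonoidAlgebra K Q)) r c =
      (1 : Matrix (Fin n × Fin k) (Fin n × Fin k) K) r c := by
  obtain ⟨i, x⟩ := r
  obtain ⟨j, y⟩ := c
  simp only at h1
  by_cases hij : i = j
  · subst hij
    simp [opMatrix, colVec, one_def, h1, Matrix.one_apply, Pi.single_apply]
  · simp [opMatrix, colVec, Matrix.one_apply, hij]

/-- Greedy choice of a conflict-free subset. -/
lemma exists_independent {α : Type} [DecidableEq α] (X : Finset α) (C : α → Finset α) (d : ℕ)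
    (hd : ∀ y ∈ X, (C y).card ≤ d) (hself : ∀ y ∈ X, y ∈ C y) :
    ∃ Y ⊆ X, (∀ y ∈ Y, ∀ y' ∈ Y, y' ∈ C y → y' = y) ∧ X.card ≤ 2 * d * Y.card := by
  induction X using Finset.strongInduction with
  | H X ih =>
    rcases X.eq_empty_or_nonempty with rfl | hne
    · exact ⟨∅, subset_rfl, by simp, by simp⟩
    -- some element is in few sets C y
    have hex : ∃ y₀ ∈ X, (X.filter fun y => y₀ ∈ C y).card ≤ d := by
      by_contra hc
      simp only [not_exists, not_and, not_le] at hc
      have h1 : ∑ y₀ ∈ X, (X.filter fun y => y₀ ∈ C y).card =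
          ∑ y ∈ X, (X.filter fun y₀ => y₀ ∈ C y).card := by
        simp only [Finset.card_filter]; exact Finset.sum_comm
      have h2 : ∑ y ∈ X, (X.filter fun y₀ => y₀ ∈ C y).card ≤ X.card * d := by
        refine (Finset.sum_le_card_nsmul _ _ d fun y hy => (Finset.card_le_card ?_).trans
          (hd y hy)).trans (by simp)
        intro z hz; exact (Finset.mem_filter.1 hz).2
      have h3 : X.card * (d + 1) ≤ ∑ y₀ ∈ X, (X.filter fun y => y₀ ∈ C y).card := by
        simpa using Finset.card_nsmul_le_sum X _ (d + 1) fun y hy => hc y hy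
      have := hne.card_pos
      nlinarith
    obtain ⟨y₀, hy₀, hsmall⟩ := hex
    let D := C y₀ ∪ X.filter fun y => y₀ ∈ C y
    have hlt : X \ D ⊂ X := by
      refine Finset.ssubset_iff_subset_ne.2 ⟨Finset.sdiff_subset, fun h => ?_⟩
      have hmem : y₀ ∈ X \ D := by rw [h]; exact hy₀
      exact (Finset.mem_sdiff.1 hmem).2 (Finset.mem_union_left _ (hself y₀ hy₀))
    obtain ⟨Y, hY, hind, hcard⟩ := ih (X \ D) hlt (fun y hy => hd y (Finset.mem_sdiff.1 hy).1)
      (fun y hy => hself y (Finset.mem_sdiff.1 hy).1)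
    have hnot : y₀ ∉ Y := fun h =>
      (Finset.mem_sdiff.1 (hY h)).2 (Finset.mem_union_left _ (hself y₀ hy₀))
    refine ⟨insert y₀ Y, Finset.insert_subset hy₀ (hY.trans Finset.sdiff_subset), ?_, ?_⟩
    · intro y hy y' hy' hC
      rw [Finset.mem_insert] at hy hy'
      obtain e | hy := hy
      · obtain e' | hy' := hy'
        · rw [e, e']
        · rw [e] at hC
          exact absurd (Finset.mem_union_left _ hC) (Finset.mem_sdiff.1 (hY hy')).2
      · obtain e' | hy' := hy'
        · rw [e'] at hC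
          exact absurd (Finset.mem_union_right (C y₀) (Finset.mem_filter.2
            ⟨(Finset.mem_sdiff.1 (hY hy)).1, hC⟩)) (Finset.mem_sdiff.1 (hY hy)).2
        · exact hind y hy y' hy' hC
    · rw [Finset.card_insert_of_notMem hnot]
      have h4 : X.card ≤ (X \ D).card + D.card := by
        rw [Finset.card_sdiff_add_card]
        exact Finset.card_le_card Finset.subset_union_left
      have h5 : D.card ≤ 2 * d :=
        (Finset.card_union_le _ _).trans (by have := hd y₀ hy₀; omega)
      rw [Nat.mul_succ]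
      omega

open scoped Classical in
/-- The points where the almost action fails to be an action, or to be free, on F. -/
noncomputable def badSet (φ : Q → Equiv.Perm (Fin k)) (F : Finset Q) : Finset (Fin k) :=
  (F ×ˢ F).biUnion fun t =>
    (Finset.univ.filter fun x => φ (t.1 * t.2) x ≠ φ t.1 (φ t.2 x)) ∪
      (Finset.univ.filter fun x => t.1 ≠ t.2 ∧ φ t.1 x = φ t.2 x)

lemma badSet_spec (φ : Q → Equiv.Perm (Fin k)) (F : Finset Q) (y : Fin k) (hy : y ∉ badSet φ F) :
    (∀ g ∈ F, ∀ h ∈ F, φ (g * h) y = φ g (φ h y)) ∧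
      (∀ g ∈ F, ∀ h ∈ F, φ g y = φ h y → g = h) := by
  classical
  simp only [badSet, Finset.mem_biUnion, Finset.mem_union, Finset.mem_filter, Finset.mem_univ,
    true_and, not_exists, not_and, not_or] at hy
  refine ⟨fun g hg h hh => ?_, fun g hg h hh he => ?_⟩
  · exact not_not.1 (hy (g, h) (Finset.mem_product.2 ⟨hg, hh⟩)).1
  · by_contra hne
    exact (hy (g, h) (Finset.mem_product.2 ⟨hg, hh⟩)).2 hne he

open scoped Classical in
lemma badSet_card (φ : Q → Equiv.Perm (Fin k)) (F : Finset Q) (δ : ℝ) (hδ : 0 ≤ δ)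
    (hφ : ∀ g ∈ F, ∀ h ∈ F,
      ((Finset.univ.filter fun x => φ (g * h) x ≠ φ g (φ h x)).card : ℝ) ≤ δ ∧
      (g ≠ h → ((Finset.univ.filter fun x => φ g x = φ h x).card : ℝ) ≤ δ)) :
    ((badSet φ F).card : ℝ) ≤ 2 * F.card * F.card * δ := by
  have h1 : (badSet φ F).card ≤ ∑ t ∈ F ×ˢ F,
      ((Finset.univ.filter fun x => φ (t.1 * t.2) x ≠ φ t.1 (φ t.2 x)).card +
        (Finset.univ.filter fun x => t.1 ≠ t.2 ∧ φ t.1 x = φ t.2 x).card) :=
    Finset.card_biUnion_le.trans (Finset.sum_le_sum fun t _ => Finset.card_union_le _ _)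
  refine (Nat.cast_le.2 h1).trans ?_
  push_cast
  refine (Finset.sum_le_card_nsmul _ _ (2 * δ) fun t ht => ?_).trans ?_
  · obtain ⟨ht1, ht2⟩ := Finset.mem_product.1 ht
    obtain ⟨hm, hd⟩ := hφ t.1 ht1 t.2 ht2
    have h2 : ((Finset.univ.filter fun x => t.1 ≠ t.2 ∧ φ t.1 x = φ t.2 x).card : ℝ) ≤ δ := by
      by_cases he : t.1 = t.2
      · simpa [he] using hδ
      · simpa [he] using hd he
    linarith
  · simp only [Finset.card_product, nsmul_eq_mul, Nat.cast_mul]
    exact le_of_eq (by ring)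

lemma final_arith (d n bad k M : ℕ) (hk : 0 < k) (hM : M = (2 * d * n + 1) * (2 * d * d) + 1)
    (h1 : k ≤ (2 * d * n + 1) * bad) (h2 : (bad : ℝ) ≤ 2 * d * d * (1 / M * k)) : False := by
  subst hM
  have hk' : (0 : ℝ) < k := Nat.cast_pos.2 hk
  have h1' : (k : ℝ) ≤ (2 * d * n + 1) * bad := by exact_mod_cast h1
  push_cast at h2
  set P : ℝ := (2 * d * n + 1) * (2 * d * d) with hP
  have hp : 0 < P + 1 := by positivity
  have h3 : (k : ℝ) ≤ P * (1 / (P + 1) * k) := by
    refine h1'.trans ((mul_le_mul_of_nonneg_left h2 (by positivity)).trans (le_of_eq ?_))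
    rw [hP]; ring
  have h4 : P * (1 / (P + 1) * k) < k := by
    rw [show P * (1 / (P + 1) * (k : ℝ)) = P / (P + 1) * k by ring]
    exact mul_lt_of_lt_one_left hk' ((div_lt_one hp).2 (by linarith))
  exact lt_irrefl _ (h3.trans_lt h4)

open scoped Classical in
/-- Elek and Szabo: sofic groups have stably finite group algebras over every field. -/
theorem stablyFinite_of_sofic (hQ : IsSofic Q) : StablyFinite K Q := by
  intro n a b hab
  by_contra hne
  let e := 1 - b * a
  have hne' : e ≠ 0 := fun h => hne (sub_eq_zero.1 h).symm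
  obtain ⟨i₀, j₀, hij⟩ : ∃ i j, e i j ≠ 0 := by
    by_contra hall
    exact hne' (Matrix.ext fun i j => not_not.1 fun h => hall ⟨i, j, h⟩)
  let supp := fun M : Matrix (Fin n) (Fin n) (MonoidAlgebra K Q) =>
    Finset.univ.biUnion fun i => Finset.univ.biUnion fun j => (M i j).coeff.support
  have hsupp : ∀ M i j, (M i j).coeff.support ⊆ supp M := fun M i j g hg =>
    Finset.mem_biUnion.2 ⟨i, Finset.mem_univ _, Finset.mem_biUnion.2 ⟨j, Finset.mem_univ _, hg⟩⟩
  let F : Finset Q := insert 1 (supp a ∪ supp b ∪ supp e)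
  have haF : ∀ i j, (a i j).coeff.support ⊆ F := fun i j =>
    (hsupp a i j).trans (fun g hg => by simp [F, hg])
  have hbF : ∀ i j, (b i j).coeff.support ⊆ F := fun i j =>
    (hsupp b i j).trans (fun g hg => by simp [F, hg])
  have heF : (e i₀ j₀).coeff.support ⊆ F :=
    (hsupp e i₀ j₀).trans (fun g hg => by simp [F, hg])
  obtain ⟨g₀, hg₀⟩ : (e i₀ j₀).coeff.support.Nonempty := by
    rwa [Finsupp.support_nonempty_iff, Ne, coeff_eq_zero]
  let d := F.card
  -- the constant
  let M : ℕ := ((2 * d) * n + 1) * (2 * d * d) + 1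
  obtain ⟨k, φ, hk, hφ⟩ := hQ F (1 / M) (by positivity)
  let bad := badSet φ F
  have hbad : (bad.card : ℝ) ≤ 2 * d * d * (1 / M * k) :=
    badSet_card φ F _ (by positivity) hφ
  have hgood := badSet_spec φ F
  have hone : ∀ y ∉ bad, φ 1 y = y := by
    intro y hy
    have := (hgood y hy).1 1 (by simp [F]) 1 (by simp [F])
    rw [one_mul] at this
    exact ((φ 1).injective this).symm
  let A := opMatrix φ a
  let B := opMatrix φ b
  let badCols : Finset (Fin n × Fin k) := Finset.univ ×ˢ bad
  have hcolAB : ∀ c ∉ badCols, ∀ r, (1 - A * B) r c = 0 := by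
    intro c hc r
    have hy : c.2 ∉ bad := fun h => hc (Finset.mem_product.2 ⟨Finset.mem_univ _, h⟩)
    rw [Matrix.sub_apply, opMatrix_mul_col φ F a b haF hbF c (hgood _ hy).1 r, hab,
      opMatrix_one_col φ c (hone _ hy) r, sub_self]
  have hcolBA : ∀ c ∉ badCols, ∀ r, (1 - B * A) r c = opMatrix φ e r c := by
    intro c hc r
    have hy : c.2 ∉ bad := fun h => hc (Finset.mem_product.2 ⟨Finset.mem_univ _, h⟩)
    rw [Matrix.sub_apply, opMatrix_mul_col φ F b a hbF haF c (hgood _ hy).1 r,
      ← opMatrix_one_col φ c (hone _ hy) r]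
    simp [opMatrix, e]
  have hrank : (1 - B * A).rank ≤ n * bad.card := by
    rw [← rank_one_sub_mul_comm]
    exact (rank_le_card_of_cols _ badCols hcolAB).trans (by simp [badCols])
  -- independent columns
  let C : Fin k → Finset (Fin k) := fun y => F.image fun g => (φ g).symm (φ g₀ y)
  have hg₀F : g₀ ∈ F := heF hg₀
  obtain ⟨Y, hYX, hind, hYcard⟩ := exists_independent (Finset.univ \ bad) C d
    (fun y _ => Finset.card_image_le)
    (fun y _ => Finset.mem_image.2 ⟨g₀, hg₀F, by simp⟩)
  let rs : Y → Fin n × Fin k := fun y => (i₀, φ g₀ y.1)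
  let cs : Y → Fin n × Fin k := fun y => (j₀, y.1)
  have hdiag : (1 - B * A).submatrix rs cs =
      Matrix.diagonal fun _ => (e i₀ j₀).coeff g₀ := by
    ext y y'
    have hy' : y'.1 ∉ bad := (Finset.mem_sdiff.1 (hYX y'.2)).2
    rw [Matrix.submatrix_apply, hcolBA _ (fun h => hy' (Finset.mem_product.1 h).2)]
    simp only [opMatrix, rs, cs]
    rw [colVec_eq_sum φ _ _ F heF, Finset.sum_apply]
    by_cases hyy : y = y'
    · subst hyy
      rw [Matrix.diagonal_apply_eq, Finset.sum_eq_single g₀]
      · simp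
      · intro g hg hgne
        have : φ g y.1 ≠ φ g₀ y.1 := fun h => hgne ((hgood _ hy').2 g hg g₀ hg₀F h)
        simp [this.symm]
      · exact fun h => absurd hg₀F h
    · rw [Matrix.diagonal_apply_ne _ hyy]
      refine Finset.sum_eq_zero fun g hg => ?_
      have : φ g₀ y.1 ≠ φ g y'.1 := by
        intro h
        refine hyy (Subtype.ext ?_).symm
        refine hind y.1 y.2 y'.1 y'.2 (Finset.mem_image.2 ⟨g, hg, ?_⟩)
        rw [h, Equiv.symm_apply_apply]
      simp [this]
  have hYrank : Y.card ≤ n * bad.card := by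
    refine le_trans (le_of_eq ?_) ((Matrix.rank_submatrix_le (1 - B * A) rs cs).trans hrank)
    rw [hdiag, Matrix.rank_diagonal]
    simp [Finsupp.mem_support_iff.1 hg₀]
  have hkle : k ≤ ((2 * d) * n + 1) * bad.card := by
    have h1 : (Finset.univ \ bad).card + bad.card = k := by
      rw [Finset.card_sdiff_add_card_eq_card (Finset.subset_univ _)]; simp
    have h2 : 2 * d * Y.card ≤ 2 * d * (n * bad.card) := Nat.mul_le_mul_left _ hYrank
    nlinarith
  exact final_arith d n bad.card k M hk rfl hkle hbad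

end Vale.Agent.P194
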