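import Vale.Agent.P194.Ext
import Vale.Agent.P194.Sofic
import Vale.Agent.P194.Kernels

/-!
# P194: descending series with locally residually-p factors
-/

namespace Vale.Agent.P194

open MonoidAlgebra

variable {K : Type} [Field K] {G : Type} [Group G]

/-- Stable finiteness passes along isomorphisms. -/
lemma StablyFinite.of_mulEquiv {H : Type} [Group H] (e : G ≃* H) (h : StablyFinite K H) :
    StablyFinite K G := by
  intro n a b hab
  let f : Matrix (Fin n) (Fin n) (MonoidAlgebra K G) →+*
      Matrix (Fin n) (Fin n) (MonoidAlgebra K H) :=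
    (mapDomainRingEquiv K e).toRingHom.mapMatrix
  have hf : Function.Injective f := fun x y hxy => Matrix.ext fun i j =>
    (mapDomainRingEquiv K e).injective (congrFun (congrFun hxy i) j)
  exact hf (by rw [map_mul, map_one]; exact h n _ _ (by rw [← map_mul, hab, map_one]))

/-- One step of a series. -/
theorem stablyFinite_step (p : ℕ) [Fact p.Prime] [CharP K p] (A B : Subgroup G) [A.Normal]
    [B.Normal] (hBA : B ≤ A) (hF : LocallyResiduallyP p (A.map (QuotientGroup.mk' B)))
    (hA : StablyFinite K (G ⧸ A)) : StablyFinite K (G ⧸ B) := by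
  have : (A.map (QuotientGroup.mk' B)).Normal :=
    Subgroup.Normal.map inferInstance _ (QuotientGroup.mk'_surjective B)
  exact stablyFinite_of_quotient p _ hF
    (hA.of_mulEquiv (QuotientGroup.quotientQuotientEquivQuotient B A hBA))

/-- Stable finiteness passes to residual limits of descending families. -/
theorem stablyFinite_of_series (N : ℕ → Subgroup G) [∀ i, (N i).Normal]
    (hle : ∀ i, N (i + 1) ≤ N i) (hbot : ∀ g, (∀ i, g ∈ N i) → g = 1)
    (hQ : ∀ i, StablyFinite K (G ⧸ N i)) : StablyFinite K G := by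
  classical
  intro n a b hab
  by_contra hne
  let e := b * a - 1
  obtain ⟨r, c, hrc⟩ : ∃ r c, e r c ≠ 0 := by
    by_contra hall
    exact hne (sub_eq_zero.1 (Matrix.ext fun r c => not_not.1 fun h => hall ⟨r, c, h⟩))
  obtain ⟨g₀, hg₀⟩ : (e r c).coeff.support.Nonempty := by
    rwa [Finsupp.support_nonempty_iff, Ne, coeff_eq_zero]
  have anti : Antitone N := antitone_nat_of_succ_le hle
  have hsep : ∀ D : Finset G, ∃ m, ∀ g ∈ D, g ≠ 1 → g ∉ N m := by
    intro D
    induction D using Finset.induction_on with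
    | empty => exact ⟨0, by simp⟩
    | insert x D _ ih =>
        obtain ⟨m, hm⟩ := ih
        by_cases hx : x = 1
        · refine ⟨m, fun g hg hg1 => ?_⟩
          rcases Finset.mem_insert.1 hg with rfl | hg
          · exact absurd hx hg1
          · exact hm g hg hg1
        obtain ⟨l, hl⟩ := not_forall.1 fun h => hx (hbot x h)
        refine ⟨max m l, fun g hg hg1 hmem => ?_⟩
        rcases Finset.mem_insert.1 hg with rfl | hg
        · exact hl (anti (le_max_right _ _) hmem)
        · exact hm g hg hg1 (anti (le_max_left _ _) hmem)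
  obtain ⟨m, hm⟩ := hsep ((e r c).coeff.support.image fun g => g₀⁻¹ * g)
  let f : Matrix (Fin n) (Fin n) (MonoidAlgebra K G) →+*
      Matrix (Fin n) (Fin n) (MonoidAlgebra K (G ⧸ N m)) :=
    (mapDomainRingHom K (QuotientGroup.mk' (N m))).mapMatrix
  have h0 : f e = 0 := by
    show f (b * a - 1) = 0
    rw [map_sub, map_mul, map_one, hQ m n _ _ (by rw [← map_mul, hab, map_one]), sub_self]
  have h1 : Finsupp.mapDomain (QuotientGroup.mk' (N m)) (e r c).coeff
      (QuotientGroup.mk' (N m) g₀) = (e r c).coeff g₀ := by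
    rw [Finsupp.mapDomain, Finsupp.sum_apply, Finsupp.sum, Finset.sum_eq_single g₀]
    · simp
    · intro g hg hgne
      rw [Finsupp.single_eq_of_ne]
      intro heq
      refine hm (g₀⁻¹ * g) (Finset.mem_image_of_mem _ hg) ?_ ?_
      · rwa [Ne, inv_mul_eq_one, eq_comm]
      · exact QuotientGroup.eq.1 heq
    · intro h; simp [Finsupp.notMem_support_iff.1 h]
  refine Finsupp.mem_support_iff.1 hg₀ (h1.symm.trans ?_)
  have h2 : (f e r c).coeff (QuotientGroup.mk' (N m) g₀) = 0 := by
    rw [h0]; rfl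
  exact h2

/-- A series from a sofic top with locally residually-p factors. -/
theorem stablyFinite_of_p_series (p : ℕ) [Fact p.Prime] [CharP K p] (N : ℕ → Subgroup G)
    [∀ i, (N i).Normal] (hle : ∀ i, N (i + 1) ≤ N i) (hbot : ∀ g, (∀ i, g ∈ N i) → g = 1)
    (htop : IsSofic (G ⧸ N 0))
    (hF : ∀ i, LocallyResiduallyP p ((N i).map (QuotientGroup.mk' (N (i + 1))))) :
    StablyFinite K G := by
  refine stablyFinite_of_series N hle hbot fun i => ?_
  induction i with
  | zero => exact stablyFinite_of_sofic htop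
  | succ i ih => exact stablyFinite_step p (N i) (N (i + 1)) (hle i) (hF i) ih

/-- An isolated abelian section is torsion-free abelian. -/
theorem locallyResiduallyP_section (p : ℕ) [Fact p.Prime] (A B : Subgroup G) [B.Normal]
    (hc : ∀ a ∈ A, ∀ b ∈ A, a * b * a⁻¹ * b⁻¹ ∈ B)
    (ht : ∀ a ∈ A, ∀ m : ℕ, 0 < m → a ^ m ∈ B → a ∈ B) :
    LocallyResiduallyP p (A.map (QuotientGroup.mk' B)) := by
  apply locallyResiduallyP_of_abelian
  · rintro _ ⟨a, ha, rfl⟩ _ ⟨b, hb, rfl⟩
    rw [← map_mul, ← map_mul, QuotientGroup.mk'_eq_mk']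
    refine ⟨b⁻¹ * a⁻¹ * b * a, ?_, by group⟩
    have := hc b⁻¹ (A.inv_mem hb) a⁻¹ (A.inv_mem ha)
    simpa using this
  · rintro _ ⟨a, ha, rfl⟩ hfin
    obtain ⟨m, hm, hm1⟩ := isOfFinOrder_iff_pow_eq_one.1 hfin
    rw [← map_pow] at hm1
    exact (QuotientGroup.eq_one_iff a).2 (ht a ha m hm ((QuotientGroup.eq_one_iff _).1 hm1))

end Vale.Agent.P194
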